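import Vale.Agent.P100.Large.Defs

/-!
# P100: positivity of the polynomials of the family for large exponents

Bernstein expansions on boxes, computed exactly and checked here by `ring`.
-/

namespace Vale.Agent.P100.Large

set_option maxHeartbeats 1000000 in
theorem qLSA0_0 (w g : ℝ) (hg : 0 < g) (hw0 : 0 ≤ w) (hw1 : w ≤ (2 / 5))
    (hg0 : 0 ≤ g) (hg1 : g ≤ (1 / 3)) : 0 < qLS (psiA w g) w g 0 0 := by
  have e : ∀ u u' v v' : ℝ, u = (w - 0) / (2 / 5) → u' = 1 - u →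
      v = (g - 0) / (1 / 3) → v' = 1 - v → qLS (psiA w g) w g 0 0 = g ^ 1 * ((1 / 100000) * g +
       (
        u' ^ 4 * ((13 / 16) * v' ^ 5 + (477083 / 100000) * v ^ 1 * v' ^ 4
           + (304609 / 28125) * v ^ 2 * v' ^ 3 + (16013723 / 1350000) * v ^ 3 * v' ^ 2
           + (25465571 / 4050000) * v ^ 4 * v' ^ 1 + (3531241 / 2700000) * v ^ 5)
        + u ^ 1 * u' ^ 3 * (2 * v' ^ 5 + (2656997 / 225000) * v ^ 1 * v' ^ 4
           + (4539491 / 168750) * v ^ 2 * v' ^ 3 + (29799919 / 1012500) * v ^ 3 * v' ^ 2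
           + (7824973 / 506250) * v ^ 4 * v' ^ 1 + (2124991 / 675000) * v ^ 5)
        + u ^ 2 * u' ^ 2 * ((3491 / 1800) * v' ^ 5 + (15815123 / 1350000) * v ^ 1 * v' ^ 4
           + (6924761 / 253125) * v ^ 2 * v' ^ 3 + (62216107 / 2025000) * v ^ 3 * v' ^ 2
           + (33526213 / 2025000) * v ^ 4 * v' ^ 1 + (4658723 / 1350000) * v ^ 5)
        + u ^ 3 * u' ^ 1 * ((326 / 375) * v' ^ 5 + (1220917 / 225000) * v ^ 1 * v' ^ 4
           + (2216251 / 168750) * v ^ 2 * v' ^ 3 + (5174213 / 337500) * v ^ 3 * v' ^ 2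
           + (1452391 / 168750) * v ^ 4 * v' ^ 1 + (420997 / 225000) * v ^ 5)
        + u ^ 4 * ((1501 / 10000) * v' ^ 5 + (97083 / 100000) * v ^ 1 * v' ^ 4
           + (68579 / 28125) * v ^ 2 * v' ^ 3 + (1331081 / 450000) * v ^ 3 * v' ^ 2
           + (777419 / 450000) * v ^ 4 * v' ^ 1 + (39083 / 100000) * v ^ 5))) := by
    rintro u u' v v' rfl rfl rfl rfl
    simp only [qLS, qLT, psiA, psiB, gamL]
    ring
  obtain ⟨u, hu0, hu⟩ : ∃ u : ℝ, 0 ≤ u ∧ u = (w - 0) / (2 / 5) :=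
    ⟨_, div_nonneg (by linarith) (by norm_num), rfl⟩
  obtain ⟨v, hv0, hv⟩ : ∃ v : ℝ, 0 ≤ v ∧ v = (g - 0) / (1 / 3) :=
    ⟨_, div_nonneg (by linarith) (by norm_num), rfl⟩
  have hu1 : 0 ≤ 1 - u := by
    rw [hu, sub_nonneg, div_le_one (by norm_num)]; linarith
  have hv1 : 0 ≤ 1 - v := by
    rw [hv, sub_nonneg, div_le_one (by norm_num)]; linarith
  rw [e u (1 - u) v (1 - v) hu rfl hv rfl]
  positivity

set_option maxHeartbeats 1000000 in
theorem qLTA0_1 (w g : ℝ) (hg : 0 < g) (hw : 0 < w) (hw0 : 0 ≤ w) (hw1 : w ≤ (2 / 5))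
    (hg0 : 0 ≤ g) (hg1 : g ≤ (1 / 3)) : 0 < qLT (psiA w g) w g 0 0 := by
  have e : ∀ u u' v v' : ℝ, u = (w - 0) / (2 / 5) → u' = 1 - u →
      v = (g - 0) / (1 / 3) → v' = 1 - v → qLT (psiA w g) w g 0 0 = w * g ^ 1 * ((1 / 100000) * g +
       (
        u' ^ 2 * ((3 / 16) * v' ^ 5 + (468749 / 300000) * v ^ 1 * v' ^ 4
           + (556561 / 112500) * v ^ 2 * v' ^ 3 + (10086223 / 1350000) * v ^ 3 * v' ^ 2
           + (21784321 / 4050000) * v ^ 4 * v' ^ 1 + (3968741 / 2700000) * v ^ 5)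
        + u ^ 1 * u' ^ 1 * ((23 / 40) * v' ^ 5 + (2062247 / 450000) * v ^ 1 * v' ^ 4
           + (2333683 / 168750) * v ^ 2 * v' ^ 3 + (40504669 / 2025000) * v ^ 3 * v' ^ 2
           + (28259321 / 2025000) * v ^ 4 * v' ^ 1 + (5068741 / 1350000) * v ^ 5)
        + u ^ 2 * ((247 / 720) * v' ^ 5 + (6578741 / 2700000) * v ^ 1 * v' ^ 4
           + (6795049 / 1012500) * v ^ 2 * v' ^ 3 + (36598669 / 4050000) * v ^ 3 * v' ^ 2
           + (24250321 / 4050000) * v ^ 4 * v' ^ 1 + (4208741 / 2700000) * v ^ 5))) := by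
    rintro u u' v v' rfl rfl rfl rfl
    simp only [qLS, qLT, psiA, psiB, gamL]
    ring
  obtain ⟨u, hu0, hu⟩ : ∃ u : ℝ, 0 ≤ u ∧ u = (w - 0) / (2 / 5) :=
    ⟨_, div_nonneg (by linarith) (by norm_num), rfl⟩
  obtain ⟨v, hv0, hv⟩ : ∃ v : ℝ, 0 ≤ v ∧ v = (g - 0) / (1 / 3) :=
    ⟨_, div_nonneg (by linarith) (by norm_num), rfl⟩
  have hu1 : 0 ≤ 1 - u := by
    rw [hu, sub_nonneg, div_le_one (by norm_num)]; linarith
  have hv1 : 0 ≤ 1 - v := by
    rw [hv, sub_nonneg, div_le_one (by norm_num)]; linarith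
  rw [e u (1 - u) v (1 - v) hu rfl hv rfl]
  positivity

set_option maxHeartbeats 1000000 in
theorem qLSA1_2 (w g : ℝ) (hg : 0 < g) (hw0 : 0 ≤ w) (hw1 : w ≤ (2 / 5))
    (hg0 : 0 ≤ g) (hg1 : g ≤ (1 / 3)) : 0 < qLS (psiA w g) w g ((1 - w) * g * (4 + 7 * g) / 2) (1 * g * (4 + 7 * g) / 2) := by
  have e : ∀ u u' v v' : ℝ, u = (w - 0) / (2 / 5) → u' = 1 - u →
      v = (g - 0) / (1 / 3) → v' = 1 - v → qLS (psiA w g) w g ((1 - w) * g * (4 + 7 * g) / 2) (1 * g * (4 + 7 * g) / 2) = g ^ 1 * ((1 / 100000) * g +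
       (
        u' ^ 4 * ((5 / 16) * v' ^ 10 + (1099999 / 300000) * v ^ 1 * v' ^ 9
           + (2852183 / 150000) * v ^ 2 * v' ^ 8 + (154781551 / 2700000) * v ^ 3 * v' ^ 7
           + (450039491 / 4050000) * v ^ 4 * v' ^ 6 + (12480150587 / 86400000) * v ^ 5 * v' ^ 5
           + (296769112099 / 2332800000) * v ^ 6 * v' ^ 4
           + (261421148099 / 3499200000) * v ^ 7 * v' ^ 3
           + (292535591663 / 10497600000) * v ^ 8 * v' ^ 2
           + (372927356807 / 62985600000) * v ^ 9 * v' ^ 1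
           + (101726279519 / 188956800000) * v ^ 10)
        + u ^ 1 * u' ^ 3 * ((4 / 5) * v' ^ 10 + (2124497 / 225000) * v ^ 1 * v' ^ 9
           + (1230997 / 25000) * v ^ 2 * v' ^ 8 + (151068889 / 1012500) * v ^ 3 * v' ^ 7
           + (2352417053 / 8100000) * v ^ 4 * v' ^ 6
           + (220776578849 / 583200000) * v ^ 5 * v' ^ 5
           + (583617654097 / 1749600000) * v ^ 6 * v' ^ 4
           + (512490134297 / 2624400000) * v ^ 7 * v' ^ 3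
           + (568188525289 / 7873200000) * v ^ 8 * v' ^ 2
           + (709824723821 / 47239200000) * v ^ 9 * v' ^ 1
           + (61913758519 / 47239200000) * v ^ 10)
        + u ^ 2 * u' ^ 2 * ((1403 / 1800) * v' ^ 10 + (4131791 / 450000) * v ^ 1 * v' ^ 9
           + (96735973 / 2025000) * v ^ 2 * v' ^ 8 + (584424509 / 4050000) * v ^ 3 * v' ^ 7
           + (20383328003 / 72900000) * v ^ 4 * v' ^ 6
           + (140720975209 / 388800000) * v ^ 5 * v' ^ 5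
           + (1103839485131 / 3499200000) * v ^ 6 * v' ^ 4
           + (317455816457 / 1749600000) * v ^ 7 * v' ^ 3
           + (1025188044527 / 15746400000) * v ^ 8 * v' ^ 2
           + (135031487287 / 10497600000) * v ^ 9 * v' ^ 1
           + (31827716719 / 31492800000) * v ^ 10)
        + u ^ 3 * u' ^ 1 * ((128 / 375) * v' ^ 10 + (99713 / 25000) * v ^ 1 * v' ^ 9
           + (13888999 / 675000) * v ^ 2 * v' ^ 8 + (93504521 / 1518750) * v ^ 3 * v' ^ 7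
           + (25790663021 / 218700000) * v ^ 4 * v' ^ 6
           + (789225250201 / 5248800000) * v ^ 5 * v' ^ 5
           + (2020102478153 / 15746400000) * v ^ 6 * v' ^ 4
           + (1687267485793 / 23619600000) * v ^ 7 * v' ^ 3
           + (63726052523 / 2624400000) * v ^ 8 * v' ^ 2
           + (68116657087 / 15746400000) * v ^ 9 * v' ^ 1 + (12398913799 / 47239200000) * v ^ 10)
        + u ^ 4 * ((113 / 2000) * v' ^ 10 + (194959 / 300000) * v ^ 1 * v' ^ 9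
           + (13365181 / 4050000) * v ^ 2 * v' ^ 8 + (2123604971 / 218700000) * v ^ 3 * v' ^ 7
           + (11970202547 / 656100000) * v ^ 4 * v' ^ 6
           + (1430007531683 / 62985600000) * v ^ 5 * v' ^ 5
           + (3537749994419 / 188956800000) * v ^ 6 * v' ^ 4
           + (933681173393 / 94478400000) * v ^ 7 * v' ^ 3
           + (31979069183 / 10497600000) * v ^ 8 * v' ^ 2
           + (81120685621 / 188956800000) * v ^ 9 * v' ^ 1
           + (1062117119 / 188956800000) * v ^ 10))) := by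
    rintro u u' v v' rfl rfl rfl rfl
    simp only [qLS, qLT, psiA, psiB, gamL]
    ring
  obtain ⟨u, hu0, hu⟩ : ∃ u : ℝ, 0 ≤ u ∧ u = (w - 0) / (2 / 5) :=
    ⟨_, div_nonneg (by linarith) (by norm_num), rfl⟩
  obtain ⟨v, hv0, hv⟩ : ∃ v : ℝ, 0 ≤ v ∧ v = (g - 0) / (1 / 3) :=
    ⟨_, div_nonneg (by linarith) (by norm_num), rfl⟩
  have hu1 : 0 ≤ 1 - u := by
    rw [hu, sub_nonneg, div_le_one (by norm_num)]; linarith
  have hv1 : 0 ≤ 1 - v := by
    rw [hv, sub_nonneg, div_le_one (by norm_num)]; linarith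
  rw [e u (1 - u) v (1 - v) hu rfl hv rfl]
  positivity

set_option maxHeartbeats 1000000 in
theorem qLTA1_3 (w g : ℝ) (hg : 0 < g) (hw : 0 < w) (hw0 : 0 ≤ w) (hw1 : w ≤ (2 / 5))
    (hg0 : 0 ≤ g) (hg1 : g ≤ (1 / 3)) : 0 < qLT (psiA w g) w g ((1 - w) * g * (4 + 7 * g) / 2) (1 * g * (4 + 7 * g) / 2) := by
  have e : ∀ u u' v v' : ℝ, u = (w - 0) / (2 / 5) → u' = 1 - u →
      v = (g - 0) / (1 / 3) → v' = 1 - v → qLT (psiA w g) w g ((1 - w) * g * (4 + 7 * g) / 2) (1 * g * (4 + 7 * g) / 2) = w * g ^ 1 * ((1 / 100000) * g +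
       (
        u' ^ 2 * ((3 / 16) * v' ^ 5 + (368749 / 300000) * v ^ 1 * v' ^ 4
           + (337811 / 112500) * v ^ 2 * v' ^ 3 + (734683 / 225000) * v ^ 3 * v' ^ 2
           + (1878107 / 1350000) * v ^ 4 * v' ^ 1 + (624973 / 8100000) * v ^ 5)
        + u ^ 1 * u' ^ 1 * ((7 / 40) * v' ^ 5 + (637247 / 450000) * v ^ 1 * v' ^ 4
           + (664933 / 168750) * v ^ 2 * v' ^ 3 + (2422261 / 506250) * v ^ 3 * v' ^ 2
           + (4919321 / 2025000) * v ^ 4 * v' ^ 1 + (437491 / 1350000) * v ^ 5)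
        + u ^ 2 * ((371 / 3600) * v' ^ 5 + (1772741 / 2700000) * v ^ 1 * v' ^ 4
           + (1496299 / 1012500) * v ^ 2 * v' ^ 3 + (2876147 / 2025000) * v ^ 3 * v' ^ 2
           + (2056321 / 4050000) * v ^ 4 * v' ^ 1 + (4991 / 2700000) * v ^ 5))) := by
    rintro u u' v v' rfl rfl rfl rfl
    simp only [qLS, qLT, psiA, psiB, gamL]
    ring
  obtain ⟨u, hu0, hu⟩ : ∃ u : ℝ, 0 ≤ u ∧ u = (w - 0) / (2 / 5) :=
    ⟨_, div_nonneg (by linarith) (by norm_num), rfl⟩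
  obtain ⟨v, hv0, hv⟩ : ∃ v : ℝ, 0 ≤ v ∧ v = (g - 0) / (1 / 3) :=
    ⟨_, div_nonneg (by linarith) (by norm_num), rfl⟩
  have hu1 : 0 ≤ 1 - u := by
    rw [hu, sub_nonneg, div_le_one (by norm_num)]; linarith
  have hv1 : 0 ≤ 1 - v := by
    rw [hv, sub_nonneg, div_le_one (by norm_num)]; linarith
  rw [e u (1 - u) v (1 - v) hu rfl hv rfl]
  positivity

set_option maxHeartbeats 1000000 in
theorem qLSB0_4 (w g : ℝ) (hg : 0 < g) (hw0 : (2 / 5) ≤ w) (hw1 : w ≤ (1 / 2))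
    (hg0 : 0 ≤ g) (hg1 : g ≤ (1 / 3)) : 0 < qLS (psiB w g) w g 0 0 := by
  have e : ∀ u u' v v' : ℝ, u = (w - (2 / 5)) / (1 / 10) → u' = 1 - u →
      v = (g - 0) / (1 / 3) → v' = 1 - v → qLS (psiB w g) w g 0 0 = g ^ 1 * ((1 / 100000) * g +
       (
        u' ^ 4 * ((1143 / 8125) * v' ^ 4 + (20853269 / 27300000) * v ^ 1 * v' ^ 3
           + (13750069 / 9100000) * v ^ 2 * v' ^ 2 + (34843327 / 27300000) * v ^ 3 * v' ^ 1
           + (10397909 / 27300000) * v ^ 4)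
        + u ^ 1 * u' ^ 3 * ((1299 / 2600) * v' ^ 4 + (18865109 / 6825000) * v ^ 1 * v' ^ 3
           + (38069677 / 6825000) * v ^ 2 * v' ^ 2 + (98506181 / 20475000) * v ^ 3 * v' ^ 1
           + (2501071 / 1706250) * v ^ 4)
        + u ^ 2 * u' ^ 2 * ((217 / 325) * v' ^ 4 + (51349477 / 13650000) * v ^ 1 * v' ^ 3
           + (316746793 / 40950000) * v ^ 2 * v' ^ 2 + (835253879 / 122850000) * v ^ 3 * v' ^ 1
           + (86392931 / 40950000) * v ^ 4)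
        + u ^ 3 * u' ^ 1 * ((827 / 2080) * v' ^ 4 + (1944598 / 853125) * v ^ 1 * v' ^ 3
           + (21696693 / 4550000) * v ^ 2 * v' ^ 2 + (130928459 / 30712500) * v ^ 3 * v' ^ 1
           + (110077033 / 81900000) * v ^ 4)
        + u ^ 4 * ((37 / 416) * v' ^ 4 + (14149909 / 27300000) * v ^ 1 * v' ^ 3
           + (90217931 / 81900000) * v ^ 2 * v' ^ 2 + (81874181 / 81900000) * v ^ 3 * v' ^ 1
           + (13085801 / 40950000) * v ^ 4))) := by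
    rintro u u' v v' rfl rfl rfl rfl
    simp only [qLS, qLT, psiA, psiB, gamL]
    ring
  obtain ⟨u, hu0, hu⟩ : ∃ u : ℝ, 0 ≤ u ∧ u = (w - (2 / 5)) / (1 / 10) :=
    ⟨_, div_nonneg (by linarith) (by norm_num), rfl⟩
  obtain ⟨v, hv0, hv⟩ : ∃ v : ℝ, 0 ≤ v ∧ v = (g - 0) / (1 / 3) :=
    ⟨_, div_nonneg (by linarith) (by norm_num), rfl⟩
  have hu1 : 0 ≤ 1 - u := by
    rw [hu, sub_nonneg, div_le_one (by norm_num)]; linarith
  have hv1 : 0 ≤ 1 - v := by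
    rw [hv, sub_nonneg, div_le_one (by norm_num)]; linarith
  rw [e u (1 - u) v (1 - v) hu rfl hv rfl]
  positivity

set_option maxHeartbeats 1000000 in
theorem qLTB0_5 (w g : ℝ) (hg : 0 < g) (hw : 0 < w) (hw0 : (2 / 5) ≤ w) (hw1 : w ≤ (1 / 2))
    (hg0 : 0 ≤ g) (hg1 : g ≤ (1 / 3)) : 0 < qLT (psiB w g) w g 0 0 := by
  have e : ∀ u u' v v' : ℝ, u = (w - (2 / 5)) / (1 / 10) → u' = 1 - u →
      v = (g - 0) / (1 / 3) → v' = 1 - v → qLT (psiB w g) w g 0 0 = w * g ^ 1 * ((1 / 100000) * g +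
       (
        u' ^ 2 * ((24 / 65) * v' ^ 4 + (61465909 / 27300000) * v ^ 1 * v' ^ 3
           + (402445181 / 81900000) * v ^ 2 * v' ^ 2 + (1129451543 / 245700000) * v ^ 3 * v' ^ 1
           + (43309909 / 27300000) * v ^ 4)
        + u ^ 1 * u' ^ 1 * ((397 / 520) * v' ^ 4 + (20588303 / 4550000) * v ^ 1 * v' ^ 3
           + (393611681 / 40950000) * v ^ 2 * v' ^ 2 + (1077022543 / 122850000) * v ^ 3 * v' ^ 1
           + (40531159 / 13650000) * v ^ 4)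
        + u ^ 2 * ((41 / 104) * v' ^ 4 + (61699909 / 27300000) * v ^ 1 * v' ^ 3
           + (126924727 / 27300000) * v ^ 2 * v' ^ 2 + (336799181 / 81900000) * v ^ 3 * v' ^ 1
           + (111437227 / 81900000) * v ^ 4))) := by
    rintro u u' v v' rfl rfl rfl rfl
    simp only [qLS, qLT, psiA, psiB, gamL]
    ring
  obtain ⟨u, hu0, hu⟩ : ∃ u : ℝ, 0 ≤ u ∧ u = (w - (2 / 5)) / (1 / 10) :=
    ⟨_, div_nonneg (by linarith) (by norm_num), rfl⟩
  obtain ⟨v, hv0, hv⟩ : ∃ v : ℝ, 0 ≤ v ∧ v = (g - 0) / (1 / 3) :=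
    ⟨_, div_nonneg (by linarith) (by norm_num), rfl⟩
  have hu1 : 0 ≤ 1 - u := by
    rw [hu, sub_nonneg, div_le_one (by norm_num)]; linarith
  have hv1 : 0 ≤ 1 - v := by
    rw [hv, sub_nonneg, div_le_one (by norm_num)]; linarith
  rw [e u (1 - u) v (1 - v) hu rfl hv rfl]
  positivity

set_option maxHeartbeats 1000000 in
theorem qLSB1_6 (w g : ℝ) (hg : 0 < g) (hw0 : (2 / 5) ≤ w) (hw1 : w ≤ (1 / 2))
    (hg0 : 0 ≤ g) (hg1 : g ≤ (1 / 3)) : 0 < qLS (psiB w g) w g ((1 - w) * g * (4 + 7 * g) / 2) ((3 / 4) * g * (4 + 7 * g) / 2) := by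
  have e : ∀ u u' v v' : ℝ, u = (w - (2 / 5)) / (1 / 10) → u' = 1 - u →
      v = (g - 0) / (1 / 3) → v' = 1 - v → qLS (psiB w g) w g ((1 - w) * g * (4 + 7 * g) / 2) ((3 / 4) * g * (4 + 7 * g) / 2) = g ^ 1 * ((1 / 100000) * g +
       (
        u' ^ 4 * ((153 / 3250) * v' ^ 8 + (23689483 / 54600000) * v ^ 1 * v' ^ 7
           + (186198347 / 109200000) * v ^ 2 * v' ^ 6
           + (14030426063 / 3785600000) * v ^ 3 * v' ^ 5
           + (32808949217 / 6814080000) * v ^ 4 * v' ^ 4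
           + (89220830071 / 23849280000) * v ^ 5 * v' ^ 3
           + (576608270831 / 357739200000) * v ^ 6 * v' ^ 2
           + (213847139479 / 715478400000) * v ^ 7 * v' ^ 1
           + (22452783239 / 19317916800000) * v ^ 8)
        + u ^ 1 * u' ^ 3 * ((2127 / 13000) * v' ^ 8 + (41138561 / 27300000) * v ^ 1 * v' ^ 7
           + (40499363 / 6825000) * v ^ 2 * v' ^ 6 + (31560256417 / 2433600000) * v ^ 3 * v' ^ 5
           + (347919609383 / 20442240000) * v ^ 4 * v' ^ 4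
           + (160495032703 / 11924640000) * v ^ 5 * v' ^ 3
           + (1072251783437 / 178869600000) * v ^ 6 * v' ^ 2
           + (3902359365497 / 3219652800000) * v ^ 7 * v' ^ 1
           + (670772605801 / 19317916800000) * v ^ 8)
        + u ^ 2 * u' ^ 2 * ((553 / 2600) * v' ^ 8 + (26655227 / 13650000) * v ^ 1 * v' ^ 7
           + (419558231 / 54600000) * v ^ 2 * v' ^ 6
           + (860216384273 / 51105600000) * v ^ 3 * v' ^ 5
           + (681480977273 / 30663360000) * v ^ 4 * v' ^ 4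
           + (30524281885813 / 1717148160000) * v ^ 5 * v' ^ 3
           + (208242053260967 / 25757222400000) * v ^ 6 * v' ^ 2
           + (14736009354163 / 8585740800000) * v ^ 7 * v' ^ 1
           + (5484056914031 / 77271667200000) * v ^ 8)
        + u ^ 3 * u' ^ 1 * ((51 / 416) * v' ^ 8 + (20369549 / 18200000) * v ^ 1 * v' ^ 7
           + (1437855049 / 327600000) * v ^ 2 * v' ^ 6
           + (327325309663 / 34070400000) * v ^ 3 * v' ^ 5
           + (194963226841 / 15331680000) * v ^ 4 * v' ^ 4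
           + (8787511977721 / 858574080000) * v ^ 5 * v' ^ 3
           + (60663868515739 / 12878611200000) * v ^ 6 * v' ^ 2
           + (13205603470663 / 12878611200000) * v ^ 7 * v' ^ 1
           + (623228900809 / 12878611200000) * v ^ 8)
        + u ^ 4 * ((11 / 416) * v' ^ 8 + (17425799 / 72800000) * v ^ 1 * v' ^ 7
           + (1222247549 / 1310400000) * v ^ 2 * v' ^ 6
           + (118789858427 / 58406400000) * v ^ 3 * v' ^ 5
           + (659655428989 / 245306880000) * v ^ 4 * v' ^ 4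
           + (3722596445423 / 1717148160000) * v ^ 5 * v' ^ 3
           + (2867276631673 / 2861913600000) * v ^ 6 * v' ^ 2
           + (235679992631 / 1073217600000) * v ^ 7 * v' ^ 1
           + (45245356057 / 4292870400000) * v ^ 8))) := by
    rintro u u' v v' rfl rfl rfl rfl
    simp only [qLS, qLT, psiA, psiB, gamL]
    ring
  obtain ⟨u, hu0, hu⟩ : ∃ u : ℝ, 0 ≤ u ∧ u = (w - (2 / 5)) / (1 / 10) :=
    ⟨_, div_nonneg (by linarith) (by norm_num), rfl⟩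
  obtain ⟨v, hv0, hv⟩ : ∃ v : ℝ, 0 ≤ v ∧ v = (g - 0) / (1 / 3) :=
    ⟨_, div_nonneg (by linarith) (by norm_num), rfl⟩
  have hu1 : 0 ≤ 1 - u := by
    rw [hu, sub_nonneg, div_le_one (by norm_num)]; linarith
  have hv1 : 0 ≤ 1 - v := by
    rw [hv, sub_nonneg, div_le_one (by norm_num)]; linarith
  rw [e u (1 - u) v (1 - v) hu rfl hv rfl]
  positivity

set_option maxHeartbeats 1000000 in
theorem qLTB1_7 (w g : ℝ) (hg : 0 < g) (hw0 : (2 / 5) ≤ w) (hw1 : w ≤ (1 / 2))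
    (hg0 : 0 ≤ g) (hg1 : g ≤ (1 / 3)) : 0 < qLT (psiB w g) w g ((1 - w) * g * (4 + 7 * g) / 2) ((3 / 4) * g * (4 + 7 * g) / 2) := by
  have e : ∀ u u' v v' : ℝ, u = (w - (2 / 5)) / (1 / 10) → u' = 1 - u →
      v = (g - 0) / (1 / 3) → v' = 1 - v → qLT (psiB w g) w g ((1 - w) * g * (4 + 7 * g) / 2) ((3 / 4) * g * (4 + 7 * g) / 2) = g ^ 1 * ((1 / 100000) * g +
       (
        u' ^ 3 * ((477 / 13000) * v' ^ 5 + (3186767 / 13650000) * v ^ 1 * v' ^ 4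
           + (29393 / 56250) * v ^ 2 * v' ^ 3 + (60084643 / 122850000) * v ^ 3 * v' ^ 2
           + (238393 / 1462500) * v ^ 4 * v' ^ 1 + (1312 / 853125) * v ^ 5)
        + u ^ 1 * u' ^ 2 * ((57 / 400) * v' ^ 5 + (49100579 / 54600000) * v ^ 1 * v' ^ 4
           + (330147823 / 163800000) * v ^ 2 * v' ^ 3 + (945754891 / 491400000) * v ^ 3 * v' ^ 2
           + (1028218157 / 1474200000) * v ^ 4 * v' ^ 1 + (9290293 / 245700000) * v ^ 5)
        + u ^ 2 * u' ^ 1 * ((23 / 130) * v' ^ 5 + (59695079 / 54600000) * v ^ 1 * v' ^ 4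
           + (87647919 / 36400000) * v ^ 2 * v' ^ 3 + (2225404157 / 982800000) * v ^ 3 * v' ^ 2
           + (2388500189 / 2948400000) * v ^ 4 * v' ^ 1 + (18491413 / 421200000) * v ^ 5)
        + u ^ 3 * ((15 / 208) * v' ^ 5 + (3939553 / 9100000) * v ^ 1 * v' ^ 4
           + (303592507 / 327600000) * v ^ 2 * v' ^ 3 + (413693297 / 491400000) * v ^ 3 * v' ^ 2
           + (833926313 / 2948400000) * v ^ 4 * v' ^ 1 + (13566961 / 1474200000) * v ^ 5))) := by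
    rintro u u' v v' rfl rfl rfl rfl
    simp only [qLS, qLT, psiA, psiB, gamL]
    ring
  obtain ⟨u, hu0, hu⟩ : ∃ u : ℝ, 0 ≤ u ∧ u = (w - (2 / 5)) / (1 / 10) :=
    ⟨_, div_nonneg (by linarith) (by norm_num), rfl⟩
  obtain ⟨v, hv0, hv⟩ : ∃ v : ℝ, 0 ≤ v ∧ v = (g - 0) / (1 / 3) :=
    ⟨_, div_nonneg (by linarith) (by norm_num), rfl⟩
  have hu1 : 0 ≤ 1 - u := by
    rw [hu, sub_nonneg, div_le_one (by norm_num)]; linarith
  have hv1 : 0 ≤ 1 - v := by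
    rw [hv, sub_nonneg, div_le_one (by norm_num)]; linarith
  rw [e u (1 - u) v (1 - v) hu rfl hv rfl]
  positivity

theorem qLSA0_pos (w g : ℝ) (hg : 0 < g) (hw : 0 < w) (hw0 : 0 ≤ w) (hw1 : w ≤ (2 / 5)) (hg1 : g ≤ (1 / 3)) :
    0 < qLS (psiA w g) w g 0 0 := by
  have hg0 : 0 ≤ g := hg.le
  exact qLSA0_0 w g hg hw0 hw1 hg0 hg1

theorem qLTA0_pos (w g : ℝ) (hg : 0 < g) (hw : 0 < w) (hw0 : 0 ≤ w) (hw1 : w ≤ (2 / 5)) (hg1 : g ≤ (1 / 3)) :
    0 < qLT (psiA w g) w g 0 0 := by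
  have hg0 : 0 ≤ g := hg.le
  exact qLTA0_1 w g hg hw hw0 hw1 hg0 hg1

theorem qLSA1_pos (w g : ℝ) (hg : 0 < g) (hw : 0 < w) (hw0 : 0 ≤ w) (hw1 : w ≤ (2 / 5)) (hg1 : g ≤ (1 / 3)) :
    0 < qLS (psiA w g) w g ((1 - w) * g * (4 + 7 * g) / 2) (1 * g * (4 + 7 * g) / 2) := by
  have hg0 : 0 ≤ g := hg.le
  exact qLSA1_2 w g hg hw0 hw1 hg0 hg1

theorem qLTA1_pos (w g : ℝ) (hg : 0 < g) (hw : 0 < w) (hw0 : 0 ≤ w) (hw1 : w ≤ (2 / 5)) (hg1 : g ≤ (1 / 3)) :
    0 < qLT (psiA w g) w g ((1 - w) * g * (4 + 7 * g) / 2) (1 * g * (4 + 7 * g) / 2) := by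
  have hg0 : 0 ≤ g := hg.le
  exact qLTA1_3 w g hg hw hw0 hw1 hg0 hg1

theorem qLSB0_pos (w g : ℝ) (hg : 0 < g) (hw : 0 < w) (hw0 : (2 / 5) ≤ w) (hw1 : w ≤ (1 / 2)) (hg1 : g ≤ (1 / 3)) :
    0 < qLS (psiB w g) w g 0 0 := by
  have hg0 : 0 ≤ g := hg.le
  exact qLSB0_4 w g hg hw0 hw1 hg0 hg1

theorem qLTB0_pos (w g : ℝ) (hg : 0 < g) (hw : 0 < w) (hw0 : (2 / 5) ≤ w) (hw1 : w ≤ (1 / 2)) (hg1 : g ≤ (1 / 3)) :
    0 < qLT (psiB w g) w g 0 0 := by
  have hg0 : 0 ≤ g := hg.le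
  exact qLTB0_5 w g hg hw hw0 hw1 hg0 hg1

theorem qLSB1_pos (w g : ℝ) (hg : 0 < g) (hw : 0 < w) (hw0 : (2 / 5) ≤ w) (hw1 : w ≤ (1 / 2)) (hg1 : g ≤ (1 / 3)) :
    0 < qLS (psiB w g) w g ((1 - w) * g * (4 + 7 * g) / 2) ((3 / 4) * g * (4 + 7 * g) / 2) := by
  have hg0 : 0 ≤ g := hg.le
  exact qLSB1_6 w g hg hw0 hw1 hg0 hg1

theorem qLTB1_pos (w g : ℝ) (hg : 0 < g) (hw : 0 < w) (hw0 : (2 / 5) ≤ w) (hw1 : w ≤ (1 / 2)) (hg1 : g ≤ (1 / 3)) :
    0 < qLT (psiB w g) w g ((1 - w) * g * (4 + 7 * g) / 2) ((3 / 4) * g * (4 + 7 * g) / 2) := by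
  have hg0 : 0 ≤ g := hg.le
  exact qLTB1_7 w g hg hw0 hw1 hg0 hg1

end Vale.Agent.P100.Large
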