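import Vale.Agent.P100.Assembly
import Vale.Agent.P100.Blocks
import Vale.Agent.P100.Large.Poly

/-!
# P100: certificates with weight `u^(1-k) v` for large `α`

Here `α = 2(p+1)/(pq-1)` is at least `n (n-2) / (n - 1/4)` and `k α ≤ 2`.
-/

namespace Vale.Agent.P100.Large

open Filter Topology

/-- The coefficient of `s b`. -/
noncomputable def cG (ψ w g : ℝ) : ℝ := gamL ψ w g / (w * (1 - w))

/-- The determinant of the `(s, a, b)` block. -/
noncomputable def sideS (N G k p : ℝ) : ℝ :=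
  (1 + k) * (1 / 2 + 2 / N) * ((1 - k) / 2 + G * p) - ((p + k * G) / 2) ^ 2

/-- The determinant of the `(t, a, b)` block. -/
noncomputable def sideT (N G k q ε : ℝ) : ℝ :=
  (1 / 2 + 2 / N) * (1 / 2 + (2 / N - 2 * ε - G) * (q - k)) - (q / 2) ^ 2

variable {w g N ψ : ℝ}

theorem sideS_eq (hw : 0 < w) (hw' : w < 1) (hg : 0 < g) (hN : N = (1 + 2 * g) / g) (H K : ℝ) :
    sideS N (cG ψ w g) (K / (1 + 2 * g)) ((1 - w + H / (1 + 2 * g)) / w) =
      qLS ψ w g H K / (w ^ 2 * (1 - w) ^ 2 * (1 + 2 * g) ^ 3) := by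
  have : 1 + 2 * g ≠ 0 := by positivity
  have : 1 - w ≠ 0 := by linarith
  subst hN
  simp only [sideS, qLS, cG]
  field_simp
  ring

theorem sideT_eq (hw : 0 < w) (hw' : w < 1) (hg : 0 < g) (hN : N = (1 + 2 * g) / g) (H K : ℝ) :
    sideT N (cG ψ w g) (K / (1 + 2 * g)) ((w + H / (1 + 2 * g)) / (1 - w)) 0 =
      qLT ψ w g H K / (w * (1 - w) ^ 2 * (1 + 2 * g) ^ 3) := by
  have : 1 + 2 * g ≠ 0 := by positivity
  have : 1 - w ≠ 0 := by linarith
  subst hN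
  simp only [sideT, qLT, cG]
  field_simp
  ring

theorem convex_pos {a b c t : ℝ} (ha : 0 < a) (hb : 0 < b) (hc : 0 ≤ c) (h0 : 0 ≤ t) (h1 : t ≤ 1) :
    0 < (1 - t) * a + t * b + t * (1 - t) * c := by
  have : 0 ≤ t * (1 - t) * c := mul_nonneg (mul_nonneg h0 (by linarith)) hc
  nlinarith [min_le_left a b, min_le_right a b, lt_min ha hb]

theorem sideS_concave (hw : 0 < w) (hN : 5 ≤ N) (G c : ℝ) {h₁ t : ℝ}
    (h0 : 0 < sideS N G (c * 0) ((1 - w + 0) / w)) (h1 : 0 < sideS N G (c * h₁) ((1 - w + h₁) / w))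
    (ht0 : 0 ≤ t) (ht1 : t ≤ 1) :
    0 < sideS N G (c * (t * h₁)) ((1 - w + t * h₁) / w) := by
  have hc : 0 ≤ h₁ ^ 2 * ((1 / 4 - 1 / N) * ((1 / w) ^ 2 + (c * G) ^ 2) +
      1 / N * (1 / w - c * G) ^ 2 + (1 / 2 + 2 / N) * c ^ 2 / 2) := by
    have : 1 / N ≤ 1 / 4 := div_le_div_of_nonneg_left one_pos.le (by norm_num) (by linarith)
    have := sub_nonneg.2 this
    positivity
  have e : sideS N G (c * (t * h₁)) ((1 - w + t * h₁) / w) =
      (1 - t) * sideS N G (c * 0) ((1 - w + 0) / w) +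
        t * sideS N G (c * h₁) ((1 - w + h₁) / w) + t * (1 - t) * (h₁ ^ 2 * ((1 / 4 - 1 / N) *
          ((1 / w) ^ 2 + (c * G) ^ 2) + 1 / N * (1 / w - c * G) ^ 2 +
            (1 / 2 + 2 / N) * c ^ 2 / 2)) := by
    simp only [sideS]
    field_simp
    ring
  rw [e]
  exact convex_pos h0 h1 hc ht0 ht1

theorem sideT_concave (hw : w < 1) (G c : ℝ) {h₁ t : ℝ}
    (h0 : 0 < sideT N G (c * 0) ((w + 0) / (1 - w)) 0)
    (h1 : 0 < sideT N G (c * h₁) ((w + h₁) / (1 - w)) 0) (ht0 : 0 ≤ t) (ht1 : t ≤ 1) :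
    0 < sideT N G (c * (t * h₁)) ((w + t * h₁) / (1 - w)) 0 := by
  have hd : 1 - w ≠ 0 := by linarith
  have e : sideT N G (c * (t * h₁)) ((w + t * h₁) / (1 - w)) 0 =
      (1 - t) * sideT N G (c * 0) ((w + 0) / (1 - w)) 0 +
        t * sideT N G (c * h₁) ((w + h₁) / (1 - w)) 0 +
          t * (1 - t) * (h₁ / (1 - w) / 2) ^ 2 := by
    simp only [sideT]
    field_simp
    ring
  rw [e]
  exact convex_pos h0 h1 (sq_nonneg _) ht0 ht1

/-- The two side conditions, from the four endpoint polynomials. -/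
theorem sides_pos (hw : 0 < w) (hw' : w < 1) (hg : 0 < g) (hg' : g ≤ 1 / 3)
    (hN : N = (1 + 2 * g) / g) {θ h : ℝ} (h0 : 0 ≤ h)
    (h1 : h ≤ (1 - w) * g * (4 + 7 * g) / 2 / (1 + 2 * g)) (s0 : 0 < qLS ψ w g 0 0)
    (s1 : 0 < qLS ψ w g ((1 - w) * g * (4 + 7 * g) / 2) (θ * g * (4 + 7 * g) / 2))
    (t0 : 0 < qLT ψ w g 0 0)
    (t1 : 0 < qLT ψ w g ((1 - w) * g * (4 + 7 * g) / 2) (θ * g * (4 + 7 * g) / 2)) :
    0 < sideS N (cG ψ w g) (θ * h / (1 - w)) ((1 - w + h) / w) ∧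
      0 < sideT N (cG ψ w g) (θ * h / (1 - w)) ((w + h) / (1 - w)) 0 := by
  have hd : 0 < 1 - w := by linarith
  have hD : 0 < 1 + 2 * g := by positivity
  have hN5 : 5 ≤ N := by rw [hN, le_div_iff₀ hg]; linarith
  set h₁ := (1 - w) * g * (4 + 7 * g) / 2 / (1 + 2 * g) with hh₁
  have hh₁0 : 0 < h₁ := by positivity
  set t := h / h₁ with ht
  have ht0 : 0 ≤ t := div_nonneg h0 hh₁0.le
  have ht1 : t ≤ 1 := (div_le_one hh₁0).2 h1
  have e : h = t * h₁ := by rw [ht, div_mul_cancel₀ _ hh₁0.ne']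
  have ek : θ * h / (1 - w) = θ / (1 - w) * (t * h₁) := by rw [← e]; ring
  have ek1 : θ / (1 - w) * h₁ = θ * g * (4 + 7 * g) / 2 / (1 + 2 * g) := by
    rw [hh₁]; field_simp
  have a0 := sideS_eq (ψ := ψ) hw hw' hg hN 0 0
  have b0 := sideT_eq (ψ := ψ) hw hw' hg hN 0 0
  rw [zero_div] at a0 b0
  constructor
  · rw [ek, e]
    refine sideS_concave hw hN5 _ _ ?_ ?_ ht0 ht1
    · rw [mul_zero, a0]; exact div_pos s0 (by positivity)
    · rw [ek1, hh₁, sideS_eq hw hw' hg hN]; exact div_pos s1 (by positivity)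
  · rw [ek, e]
    refine sideT_concave hw' _ _ ?_ ?_ ht0 ht1
    · rw [mul_zero, b0]; exact div_pos t0 (by positivity)
    · rw [ek1, hh₁, sideT_eq hw hw' hg hN]; exact div_pos t1 (by positivity)

theorem wForm_eq {n : ℕ} (hn : (n : ℝ) ≠ 0) (k x y z : ℝ) :
    wForm n (1 - k) 1 (-(1 + k) / 2) (-1 / 2) (-(1 - k) / 2) (-1 / 2) (k * (1 - k) / 2) x y z =
      (1 + k) * ((1 + k) / n - k / 2) * x ^ 2 + k * (1 - k) / 2 * y ^ 2 + 1 / n * z ^ 2 := by
  simp only [wForm]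
  field_simp
  ring

/-- **The certificate for large `α`**, with `α = 2 (1 - w) / h`. -/
theorem exists_cert {n : ℕ} (hn : 5 ≤ n) {p q h : ℝ} (hw : 0 < w) (hw' : w ≤ 1 / 2)
    (hg : g = 1 / ((n : ℝ) - 2)) (h0 : 0 < h)
    (h1 : h ≤ (1 - w) * g * (4 + 7 * g) / 2 / (1 + 2 * g)) (hp : p = (1 - w + h) / w)
    (hq : q = (w + h) / (1 - w)) :
    ∃ (k δ : ℝ) (c : Fin 14 → ℝ),
      0 < k ∧ k * (1 - w) ≤ h ∧ k < 1 ∧ 0 < δ ∧ IsCert n p q (1 - k) 1 δ c := by
  have hN5 : (5 : ℝ) ≤ n := by exact_mod_cast hn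
  have hn0 : (0 : ℝ) < n := by linarith
  have hg0 : 0 < g := by rw [hg]; exact div_pos one_pos (by linarith)
  have hg' : g ≤ 1 / 3 := by
    rw [hg]; exact div_le_div_of_nonneg_left one_pos.le (by norm_num) (by linarith)
  have hD : 0 < 1 + 2 * g := by positivity
  have hN : (n : ℝ) = (1 + 2 * g) / g := by
    have : (n : ℝ) - 2 ≠ 0 := by linarith
    rw [hg]; field_simp; ring
  have hw1 : w < 1 := by linarith
  have hd : 0 < 1 - w := by linarith
  obtain ⟨θ, ψ, hθ0, hθ1, hS, hT⟩ : ∃ θ ψ : ℝ, 0 < θ ∧ θ ≤ 1 ∧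
      0 < sideS n (cG ψ w g) (θ * h / (1 - w)) p ∧
        0 < sideT n (cG ψ w g) (θ * h / (1 - w)) q 0 := by
    subst hp hq
    rcases le_total w (2 / 5) with hw2 | hw2
    · refine ⟨1, psiA w g, one_pos, le_rfl, sides_pos hw hw1 hg0 hg' hN h0.le h1 ?_ ?_ ?_ ?_⟩
      · exact qLSA0_pos w g hg0 hw hw.le hw2 hg'
      · exact qLSA1_pos w g hg0 hw hw.le hw2 hg'
      · exact qLTA0_pos w g hg0 hw hw.le hw2 hg'
      · exact qLTA1_pos w g hg0 hw hw.le hw2 hg'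
    · refine ⟨3 / 4, psiB w g, by norm_num, by norm_num,
        sides_pos hw hw1 hg0 hg' hN h0.le h1 ?_ ?_ ?_ ?_⟩
      · exact qLSB0_pos w g hg0 hw hw2 hw' hg'
      · exact qLSB1_pos w g hg0 hw hw2 hw' hg'
      · exact qLTB0_pos w g hg0 hw hw2 hw' hg'
      · exact qLTB1_pos w g hg0 hw hw2 hw' hg'
  set k := θ * h / (1 - w) with hk
  have hk0 : 0 < k := by positivity
  have hkh : k * (1 - w) ≤ h := by
    rw [hk, div_mul_cancel₀ _ hd.ne']; exact mul_le_of_le_one_left h0.le hθ1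
  have hk2 : k ≤ g * (4 + 7 * g) / 2 / (1 + 2 * g) := by
    have := hkh.trans h1
    rw [show (1 - w) * g * (4 + 7 * g) / 2 / (1 + 2 * g) =
      g * (4 + 7 * g) / 2 / (1 + 2 * g) * (1 - w) by ring] at this
    exact le_of_mul_le_mul_right this hd
  have hk2g : k < 2 * g := by
    refine hk2.trans_lt ?_
    rw [div_lt_iff₀ hD]
    nlinarith [mul_pos hg0 hg0]
  have hk1 : k < 1 := by linarith
  have ha : 0 < (1 + k) * ((1 + k) / n - k / 2) := by
    refine mul_pos (by positivity) ?_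
    rw [sub_pos, lt_div_iff₀ hn0]
    have : k * ((n : ℝ) - 2) < 2 := by
      calc k * ((n : ℝ) - 2) < 2 * g * ((n : ℝ) - 2) := mul_lt_mul_of_pos_right hk2g (by linarith)
        _ = 2 := by rw [hg]; field_simp; exact div_self (by linarith)
    linarith
  have hτ : 0 ≤ k * (1 - k) / 2 := by
    have : 0 ≤ 1 - k := by linarith
    positivity
  have ev : ∀ {f : ℝ → ℝ}, Continuous f → 0 < f 0 → ∀ᶠ ε in 𝓝[>] (0 : ℝ), 0 < f ε :=
    fun hf hf0 => eventually_nhdsWithin_of_eventually_nhds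
      ((hf.tendsto 0).eventually (eventually_gt_nhds hf0))
  obtain ⟨ε, e1, e4, e5, hε⟩ := ((ev (f := fun ε => (1 + k) * ((1 + k) / n - k / 2) - ε)
    (by fun_prop) (by simpa using ha)).and
    ((ev (f := fun ε => sideT n (cG ψ w g) k q ε) (by unfold sideT; fun_prop) hT).and
    ((eventually_nhdsWithin_of_eventually_nhds
      (eventually_le_nhds (by positivity : (0 : ℝ) < 1 / n))).and
        (eventually_mem_nhdsWithin (s := Set.Ioi (0 : ℝ)))))).exists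
  have hε0 : 0 < ε := hε
  have hP : (0 : ℝ) < (1 + k) * (1 / 2 + 2 / n) := by positivity
  have hQ : (0 : ℝ) < 1 / 2 + 2 / n := by positivity
  obtain ⟨δ, hδ, hc⟩ := isCert_of_blocks (n := n) (p := p) (q := q) (A := 1 - k) (B := 1)
    (c₁ := -(1 + k) / 2) (c₂ := -1 / 2) (c₃ := -(1 - k) / 2) (c₄ := -1 / 2) (g := cG ψ w g)
    (h := 2 / (n : ℝ) - 2 * ε - cG ψ w g) (τ := k * (1 - k) / 2) (by omega) hε0 hτ
    (fun x y z => by
      rw [wForm_eq hn0.ne']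
      nlinarith [mul_nonneg e1.le (sq_nonneg x), mul_nonneg hτ (sq_nonneg y),
        mul_nonneg (sub_nonneg.2 e5) (sq_nonneg z)])
    (by convert hP using 1; ring) (by
      rw [sideS] at hS
      calc _ = ((p + k * cG ψ w g) / 2) ^ 2 := by ring
        _ ≤ (1 + k) * (1 / 2 + 2 / (n : ℝ)) * ((1 - k) / 2 + cG ψ w g * p) := by linarith
        _ = _ := by ring)
    (by convert hQ using 1; ring) (by
      have := e4; rw [sideT] at this
      calc _ = (q / 2) ^ 2 := by ring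
        _ ≤ (1 / 2 + 2 / (n : ℝ)) *
            (1 / 2 + (2 / (n : ℝ) - 2 * ε - cG ψ w g) * (q - k)) := by linarith
        _ = _ := by ring)
    (fun s t _ _ => by
      have := mul_nonneg (sub_nonneg.2 e5) (sq_nonneg (s - t))
      linear_combination this)
  exact ⟨k, δ, _, hk0, hkh, hk1, hδ, hc⟩

end Vale.Agent.P100.Large
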