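import Mathlib

/-!
# P100: the polynomials of the certificate family for large `α`

`g = 1/(n-2)`, `w = β/(α+β)`; the weight is `u^(1-k) v` with `k = θ h/(1-w)`, `h = 2/(α+β)`, so
`(1 - A) α ≤ 2`. The arguments `H`, `K` are `h`, `k` times `1 + 2g`.
-/

namespace Vale.Agent.P100.Large

/-- The correction in the coefficient of `s b` for `w ≤ 2/5`. -/
noncomputable def psiA (w g : ℝ) : ℝ :=
  -3 / 8 + w - 13 / 15 * g * w + 1 / 5 * g ^ 2 + 5 / 9 * w ^ 2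

/-- The correction in the coefficient of `s b` for `w ≥ 2/5`. -/
noncomputable def psiB (w g : ℝ) : ℝ := -7 / 13 + 3 / 2 * w + 1 / 7 * g - 5 / 7 * g * w

/-- `w (1 - w)` times the coefficient of `s b`. -/
noncomputable def gamL (ψ w g : ℝ) : ℝ := (1 - 2 * w) / 2 + g * ψ

/-- The `(s, a, b)` determinant times `w² (1 - w)² (1 + 2g)³`. -/
noncomputable def qLS (ψ w g H K : ℝ) : ℝ :=
  (1 + 2 * g + K) * ((1 + 2 * g) / 2 + 2 * g) *
      ((1 + 2 * g - K) * w ^ 2 * (1 - w) ^ 2 / 2 +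
        gamL ψ w g * (1 - w) * ((1 - w) * (1 + 2 * g) + H)) -
    (1 + 2 * g) * (((1 - w) * (1 + 2 * g) + H) * (1 - w) + K * gamL ψ w g) ^ 2 / 4

/-- The `(t, a, b)` determinant times `w (1 - w)² (1 + 2g)³`. -/
noncomputable def qLT (ψ w g H K : ℝ) : ℝ :=
  ((1 + 2 * g) / 2 + 2 * g) *
      ((1 + 2 * g) ^ 2 * w * (1 - w) ^ 2 / 2 +
        (2 * g * (w * (1 - w)) - gamL ψ w g * (1 + 2 * g)) *
          (w * (1 + 2 * g) + H - (1 - w) * K)) -
    w * (1 + 2 * g) * (w * (1 + 2 * g) + H) ^ 2 / 4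

end Vale.Agent.P100.Large
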